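import Crest.Agent.X212.Tbs74.Defs
import Crest.Agent.X212.Rob53.Pz
import Crest.Agent.X212.Sm10.Res
import Crest.Agent.X212.Emo56.Ext
import Crest.Agent.X212.Tb46.Compat
import Crest.Agent.X212.Taub88.Leaf
import Crest.Agent.X212.Num57.Es

/-!
# Row 212, T-GEO (helper51): the model of a closed symplectic manifold
-/

set_option autoImplicit false
set_option linter.unusedSectionVars false
noncomputable section
open scoped Manifold ContDiff Topology
open Set

namespace Crest.Agent.X212.Tgeo51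
open An Sw Flo2 Geo28 Met55 Sw87.Mo
open Lab56 (C8)
open Dr59 (Cs Cl)
open Int54 (oc volF SameOn)
open Num57 (k2)

variable {κ : Type} [Fintype κ] [DecidableEq κ] {μ : Type} [Fintype μ] [DecidableEq μ] (X : M4)
  [CompactSpace X.M]

variable (κ) in
/-- no bands, no boxes -/
def mt : MT κ X where
  N := Empty
  nb i := i.elim
  std i := i.elim
  dj i := i.elim
  cpt _ := by simpa using isCompact_univ
  nc := 0
  bx j := j.elim0
  src j := j.elim0
  off j := j.elim0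
  pin := none
  pout := none
  p3 := none
  inn i := i.elim
  out i := i.elim
  ne3 i := i.elim

variable {X}

/-- one frame -/
def mb (F : Fr X.I X.M (Option κ)) : MB (mt κ X) 0 :=
  ⟨fun _ => F.e, Fin.elim0, fun a _ x => VJ.of_fixed ((pre_fAt F.toPre x).sm a), fun _ => pre_sp F.toPre,
    fun _ _ => rfl, fun _ => rfl, fun c => c.elim0, fun c => c.elim0, fun _ i => i.elim, fun c => c.elim0,
    fun _ => rfl⟩

/-- one module, one form -/
def mc {β : MB (mt κ X) 0} {m : C8 X.M (Option κ) μ} (hm : m.On X.I (fP (β.e 0)) univ) {f : X.Fm}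
    (hf : Cl X.I 2 univ f) : MC μ β :=
  have hf : Cs X.I 2 univ f := ⟨hf, .of_compactSpace _, subset_univ _⟩
  { ec := fun i => i.elim, cl := fun i => i.elim, std := fun i => i.elim, m := m, lit := fun i => i.elim
    mon := hm, fo := fun _ => f, cs := fun _ => hf
    sf := fun _ _ x => Prm93.JAt.of_fixed (Sm10.Rs.sm_cmp (β.fr 0) hf x)
    f0 := fun _ i => i.elim, mc := 0, smc := fun _ _ _ => contMDiffAt_const
    mJ := fun _ _ => by simp, mp := fun _ _ => by simp, m0 := fun _ i => i.elim, η := 0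
    jc := fun j => j.elim0, tst := fun _ j => j.elim0 }

theorem ms0 {β : MB (mt κ X) 0} {m : C8 X.M (Option κ) μ} (hm : m.On X.I (fP (β.e 0)) univ) {f : X.Fm}
    (hf : Cl X.I 2 univ f) : ((mc hm hf).P 0).bg.ms = 0 :=
  funext fun _ => (add_zero _).trans (Finset.sum_eq_zero fun i _ => Empty.elim i)

theorem cmp_k2 (F : Fr X.I X.M (Option κ)) (f : X.Fm) (x : X.M) (s : Option κ × Option κ) :
    cmp F.e f x s = k2 F f s.1 s.2 x := by
  refine congrArg (R208.F.evA X.X.E 2 (f x)) (funext fun i => ?_)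
  fin_cases i <;> rfl

/-- an almost Kaehler frame -/
theorem exists_ak (β : MB (mt κ X) 0) {w : X.Fm} (hw : Cl X.I 2 univ w) (h : SameOn (w * w) X.o univ) :
    ∃ F : Fr X.I X.M (Option κ), Taub88.Ak (mb F).B ((mb F).F 0) (k2 ((mb F).F 0) w) := by
  have s := Num57.same_ov (F := β.F 0) X.X.dim X.ori
  have p := fun x => (s.trans h.symm).rat_pos (mem_univ x)
  obtain ⟨F, hF⟩ := Tb46.compat ⟨β.F 0, _, Num57.ok_ov X.X.dim (rFr_vol _ _) X.ori⟩ w
    ⟨hw, hw, p, p, fun x => (p x).le⟩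
  have v : ∀ x, Num57.Vo (fun a b => F.P a b x) fun a b c d => oc (β.e 0) (volF X.o (β.e 0)) a b c d x :=
    fun x => by rw [hF.pos.P]; exact Num57.vo_oc (β.F 0) X.X.dim (X.ori.unit_vol _) x
  have s' := (X.ori.sameOn_volF (Int54.pre_sp F.toPre) univ).symm.trans (hF.pos.ori.trans s).symm
  have e : oc F.e (volF X.o F.e) = oc (β.e 0) (volF X.o (β.e 0)) := by
    rw [← Num57.oc_vol F v]
    funext _ _ _ _ x
    exact Int54.evA_congr_tp X.X.dim ((X.ori.unit_vol F.toPre x).tp_eq (Num57.unitV_vol F X.X.dim v x)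
      (s' x trivial)) _
  refine ⟨F, ⟨fun a b x => Num57.sa_k2 _ (hw.sm x trivial) a b, fun x => ?_, fun x => ?_⟩,
    Taub88.d3_closed hw⟩
  · have := hF.cx x
    rw [← hF.pos.P] at this
    simp only [fr_P] at this
    exact this
  · exact (congrArg (fun o : _ → _ → _ → _ → X.M → ℝ => Taub88.SD (fun a b c d => o a b c d x)
      fun a b => k2 F w a b x) e).mpr (hF.sd x)

theorem exists_mc (hC : Tbs74.CanStmt) (hA : Tbs74.AnStmt κ L0 (μ ⊕ μ)) (h6 : 6 ≤ Fintype.card μ)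
    (β : MB (mt κ X) 0) {w : X.Fm} (hw : Cl X.I 2 univ w) (h : SameOn (w * w) X.o univ) :
    ∃ (d : X.L) (g : X.Fm) (r : ℝ), r ≠ 0 ∧ Bor5.T.Cur d g ∧ ∃ (β : MB (mt κ X) 0) (c : MC μ β),
      c.Cl d ∧ c.fo 0 = (1 / 2 : ℝ) • (g + r • w) ∧ ∀ t, Rad94.Stb (c.P t).bg := by
  have := Sob92.scs (I := X.I) (M := X.M)
  obtain ⟨F, hF⟩ := exists_ak β hw h
  obtain ⟨m, u, hm, u1, u2, u3⟩ := hC X.X _ _ μ (mb F).B _ h6 Rob53.Pz.B_ok hF.toTh
  obtain ⟨d, hd⟩ := Gm56.rp_cls ((mb F).fr 0) hm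
  have ok := ((Rob53.Pz.pzStmt κ μ).ok (mc (β := mb F) hm .zero) 0).1.bg
  obtain ⟨a, ha, r₀, hr⟩ := hA X.X ((mc (β := mb F) hm .zero).P 0).bg _ u
    ⟨ok, rfl, ms0 _ _, hF, u1, u2, u3⟩
  obtain ⟨c, c1, c2⟩ := Gm56.cur_fc ok rfl hd ha.sa ha.pa
  refine ⟨d, c, 2 * (r₀ + 1), by positivity, c1, mb F,
    mc hm (((Nvg56.cur_cl c1).add (hw.smul _)).smul _), hd, rfl, fun t => ?_⟩
  obtain rfl : t = 0 := Subsingleton.elim _ _
  refine hr (2 * (r₀ + 1)) (by omega) _ fun x => congrArg _ ?_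
  ext s
  refine (cmp_k2 ((mb F).F 0) ((1 / 2 : ℝ) • (c + (2 * (r₀ + 1) : ℝ) • w)) x s).trans ?_
  have key : ∀ p q z : ℝ, p = 2 * z → 1 / 2 * (p + 2 * (r₀ + 1) * q) = z + (r₀ + 1) * q :=
    fun p q z h => by rw [h]; ring
  simp only [k2, Pi.smul_apply, Pi.add_apply, Num57.e2_smul, Num57.e2_add, PiLp.add_apply, PiLp.smul_apply,
    nsmul_eq_mul, Nat.mul_div_cancel_left _ two_pos, Nat.cast_succ]
  exact key _ _ _ (c2 x s)

/-- **T-GEO** -/
theorem geo : Tbs74.GeoStmt := fun hC hA W w hc hw h => by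
  have : CompactSpace (m4 W).M := hc
  obtain ⟨β, -⟩ := Emo56.site (mt κ0 (m4 W)) fun i => i.elim
  obtain ⟨d, g, r, h1, h2, β, c, h3, h4, h5⟩ := exists_mc hC hA (by simp) β hw h
  exact ⟨d, g, r, h1, h2, _, β, c, inferInstanceAs (IsEmpty Empty), rfl, h3, h4,
    fun _ _ => ⟨rfl, rfl, rfl, rfl, rfl, h5⟩⟩

end Crest.Agent.X212.Tgeo51
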